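import Mathlib

/-!
P280, Theorem S: definitions. `R = ⊕_d R_d` is the section ring of a projectively normal
projective manifold `X`; curves are graded algebra homomorphisms.
-/

open Polynomial

namespace Vale.Agent.P280.S

section statement

variable {R : Type} [CommRing R] [Algebra ℂ R]

/-- `p`, a point of the affine cone `Spec R`, is its vertex. -/
def IsVertex (𝒜 : ℕ → Submodule ℂ R) (p : R →ₐ[ℂ] ℂ) : Prop :=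
  ∀ d : ℕ, 0 < d → ∀ h ∈ 𝒜 d, p h = 0

/-- `v` is a tangent vector of `Spec R` at the point `p`. -/
def IsTangent (p : R →ₐ[ℂ] ℂ) (v : R →ₗ[ℂ] ℂ) : Prop :=
  ∀ a b : R, v (a * b) = p a * v b + p b * v a

/-- `p` and `q` lie over the same point of `X`. -/
def SamePoint (𝒜 : ℕ → Submodule ℂ R) (p q : R →ₐ[ℂ] ℂ) : Prop :=
  ∃ c : ℂ, c ≠ 0 ∧ ∀ d : ℕ, ∀ h ∈ 𝒜 d, q h = c ^ d * p h

/-- `R` is the section ring `⊕_d H⁰(X, O(d))` of a projectively normal projective manifold `X`. -/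
structure IsProjectiveManifold (𝒜 : ℕ → Submodule ℂ R) : Prop where
  /-- `R` is finitely generated. -/
  finiteType : Algebra.FiniteType ℂ R
  /-- `R` is a domain. -/
  domain : IsDomain R
  /-- `R` is normal. -/
  normal : IsIntegrallyClosed R
  /-- `R_0 = ℂ`. -/
  zero : ∀ h ∈ 𝒜 0, ∃ c : ℂ, h = algebraMap ℂ R c
  /-- `R` is generated by its elements of degree one. -/
  gen : Algebra.adjoin ℂ {h : R | h ∈ 𝒜 1} = ⊤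
  /-- `X` is nonempty. -/
  nonempty : ∃ p : R →ₐ[ℂ] ℂ, ¬ IsVertex 𝒜 p
  /-- `X` is smooth: the cone is regular away from its vertex. -/
  smooth : ∀ p : R →ₐ[ℂ] ℂ, ¬ IsVertex 𝒜 p → ∀ (P : Ideal R) [P.IsPrime], P = RingHom.ker p →
    IsRegularLocalRing (Localization.AtPrime P)

/-- The point of the cone at the parameter `(a 0, a 1)` of a curve. -/
noncomputable def pt (φ : R →ₐ[ℂ] MvPolynomial (Fin 2) ℂ) (a : Fin 2 → ℂ) : R →ₐ[ℂ] ℂ :=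
  (MvPolynomial.aeval a).comp φ

/-- `φ` is a morphism `f : ℙ¹ → X` with `f^* O(1) = O(e)`, a rational curve of degree `e`. -/
def IsCurve (𝒜 : ℕ → Submodule ℂ R) (e : ℕ) (φ : R →ₐ[ℂ] MvPolynomial (Fin 2) ℂ) : Prop :=
  (∀ d : ℕ, ∀ h ∈ 𝒜 d, (φ h).IsHomogeneous (d * e)) ∧
    ∀ a : Fin 2 → ℂ, a ≠ 0 → ¬ IsVertex 𝒜 (pt φ a)

/-- The tangent bundle of `X` is nef on rational curves. -/
def NefOnRationalCurves (𝒜 : ℕ → Submodule ℂ R) : Prop :=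
  ∀ (e : ℕ) (φ : R →ₐ[ℂ] MvPolynomial (Fin 2) ℂ), IsCurve 𝒜 e φ →
    ∀ a : Fin 2 → ℂ, a ≠ 0 → ∀ v : R →ₗ[ℂ] ℂ, IsTangent (pt φ a) v →
      ∃ δ : R →ₗ[ℂ] MvPolynomial (Fin 2) ℂ,
        (∀ x y : R, δ (x * y) = φ x * δ y + φ y * δ x) ∧
        (∀ d : ℕ, ∀ h ∈ 𝒜 d, (δ h).IsHomogeneous (d * e)) ∧
        ∀ h : R, MvPolynomial.aeval a (δ h) = v h

/-- The points `p` and `q` are joined by a chain of rational curves of total degree `n`. -/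
inductive IsJoined (𝒜 : ℕ → Submodule ℂ R) : ℕ → (R →ₐ[ℂ] ℂ) → (R →ₐ[ℂ] ℂ) → Prop
  /-- The empty chain. -/
  | refl (p q : R →ₐ[ℂ] ℂ) : SamePoint 𝒜 p q → IsJoined 𝒜 0 p q
  /-- One more curve, from `(0 : 1)` to `(1 : 0)`. -/
  | step (n e : ℕ) (p q : R →ₐ[ℂ] ℂ) (φ : R →ₐ[ℂ] MvPolynomial (Fin 2) ℂ) : IsCurve 𝒜 e φ →
      IsJoined 𝒜 n p (pt φ ![0, 1]) → SamePoint 𝒜 (pt φ ![1, 0]) q → IsJoined 𝒜 (n + e) p q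

/-- Through `x`, the general point of `X`, and `Y` (the zero set of `J`) there is exactly one
rational curve of degree `e`, and `x` is not joined to `Y` by chains of smaller degree. -/
structure IsGood (𝒜 : ℕ → Submodule ℂ R) (x : R →ₐ[ℂ] ℂ) (J : Set R) (e : ℕ) : Prop where
  /-- `x` is a point of `X`. -/
  notVertex : ¬ IsVertex 𝒜 x
  /-- `J` consists of homogeneous elements: its zero set `Y` is a closed subset of `X`. -/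
  homogeneous : ∀ h ∈ J, ∃ d : ℕ, h ∈ 𝒜 d
  /-- Chains of rational curves of degree less than `e` do not join `x` to `Y`. -/
  minimal : ∀ (n : ℕ) (y : R →ₐ[ℂ] ℂ), ¬ IsVertex 𝒜 y → (∀ h ∈ J, y h = 0) →
    IsJoined 𝒜 n x y → e ≤ n
  /-- For all `z` in a nonempty open set there is exactly one rational curve `f` of degree `e` with
  `f(0) = x`, `f(∞) ∈ Y`, `f(1) = z`. -/
  unique : ∃ d : ℕ, 0 < d ∧ ∃ g ∈ 𝒜 d, g ≠ 0 ∧ ∀ z : R →ₐ[ℂ] ℂ, z g ≠ 0 →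
    ∃! φ : R →ₐ[ℂ] MvPolynomial (Fin 2) ℂ, IsCurve 𝒜 e φ ∧ SamePoint 𝒜 x (pt φ ![0, 1]) ∧
      (∀ h ∈ J, pt φ ![1, 0] h = 0) ∧ pt φ ![1, 1] = z

/-- `T_X` is generated by its global sections, that is, `X` is homogeneous. -/
def IsHomogeneousManifold (𝒜 : ℕ → Submodule ℂ R) : Prop :=
  ∀ p : R →ₐ[ℂ] ℂ, ¬ IsVertex 𝒜 p → ∀ v : R →ₗ[ℂ] ℂ, IsTangent p v →
    ∃ D : Derivation ℂ R R, (∀ d : ℕ, ∀ h ∈ 𝒜 d, D h ∈ 𝒜 d) ∧ ∀ h : R, p (D h) = v h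

/-- The automorphisms of `X` act transitively. -/
def IsTransitive (𝒜 : ℕ → Submodule ℂ R) : Prop :=
  ∀ z z' : R →ₐ[ℂ] ℂ, ¬ IsVertex 𝒜 z → ¬ IsVertex 𝒜 z' → ∃ F : R ≃ₐ[ℂ] R,
    (∀ d : ℕ, ∀ h ∈ 𝒜 d, F h ∈ 𝒜 d) ∧ ∀ h, z' h = z (F h)

end statement

section weak

variable {R : Type} [CommRing R] [Algebra ℂ R]

/-- The point `q` of the cone over the field `k` is not the vertex. -/
def NV (𝒜 : ℕ → Submodule ℂ R) {k : Type} [Field k] [Algebra ℂ k] (q : R →ₐ[ℂ] k) : Prop :=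
  ∃ h ∈ 𝒜 1, q h ≠ 0

/-- `ψ` has degree at most `e`. -/
def Deg (𝒜 : ℕ → Submodule ℂ R) {k : Type} [Field k] [Algebra ℂ k] (e : ℕ)
    (ψ : R →ₐ[ℂ] k[X]) : Prop :=
  ∀ d : ℕ, ∀ h ∈ 𝒜 d, (ψ h).natDegree ≤ d * e

/-- `ψ` starts at `q`. -/
def Starts (𝒜 : ℕ → Submodule ℂ R) {k : Type} [Field k] [Algebra ℂ k] (ψ : R →ₐ[ℂ] k[X])
    (q : R →ₐ[ℂ] k) : Prop :=
  ∃ c : k, c ≠ 0 ∧ ∀ d : ℕ, ∀ h ∈ 𝒜 d, (ψ h).coeff 0 = c ^ d * q h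

/-- `ψ`, of degree `e`, ends at `q`. -/
def Ends (𝒜 : ℕ → Submodule ℂ R) {k : Type} [Field k] [Algebra ℂ k] (e : ℕ) (ψ : R →ₐ[ℂ] k[X])
    (q : R →ₐ[ℂ] k) : Prop :=
  ∃ c : k, c ≠ 0 ∧ ∀ d : ℕ, ∀ h ∈ 𝒜 d, (ψ h).coeff (d * e) = c ^ d * q h

/-- Weak chains (interior base points are allowed), of total degree `n`, over the field `k`. -/
inductive Ch (𝒜 : ℕ → Submodule ℂ R) (k : Type) [Field k] [Algebra ℂ k] :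
    ℕ → (R →ₐ[ℂ] k) → (R →ₐ[ℂ] k) → Prop
  | refl (q : R →ₐ[ℂ] k) : NV 𝒜 q → Ch 𝒜 k 0 q q
  | step (n e : ℕ) (p q q' : R →ₐ[ℂ] k) (ψ : R →ₐ[ℂ] k[X]) : Ch 𝒜 k n p q → NV 𝒜 q' →
      Deg 𝒜 e ψ → Starts 𝒜 ψ q → Ends 𝒜 e ψ q' → Ch 𝒜 k (n + e) p q'

/-- A weak curve of degree `e` over `k` which starts at `x`, ends in `Y` and has the value `θ`
at `1`. -/
structure Sol (𝒜 : ℕ → Submodule ℂ R) (x : R →ₐ[ℂ] ℂ) (J : Set R) (e : ℕ) {k : Type} [Field k]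
    [Algebra ℂ k] (θ : R →ₐ[ℂ] k) (ψ : R →ₐ[ℂ] k[X]) : Prop where
  deg : Deg 𝒜 e ψ
  starts : Starts 𝒜 ψ ((Algebra.ofId ℂ k).comp x)
  ends : ∃ y : R →ₐ[ℂ] k, NV 𝒜 y ∧ (∀ h ∈ J, y h = 0) ∧ Ends 𝒜 e ψ y
  one : ∀ h : R, (ψ h).eval 1 = θ h

/-- The hypotheses in weak form. -/
structure Good (𝒜 : ℕ → Submodule ℂ R) (x : R →ₐ[ℂ] ℂ) (J : Set R) (e : ℕ) : Prop where
  nv : NV 𝒜 x
  hom : ∀ h ∈ J, ∃ d : ℕ, h ∈ 𝒜 d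
  min : ∀ (n : ℕ) (y : R →ₐ[ℂ] ℂ), NV 𝒜 y → (∀ h ∈ J, y h = 0) → Ch 𝒜 ℂ n x y → e ≤ n
  uniq : ∃ d : ℕ, 0 < d ∧ ∃ g ∈ 𝒜 d, g ≠ 0 ∧ ∀ z : R →ₐ[ℂ] ℂ, z g ≠ 0 →
    ∃! ψ : R →ₐ[ℂ] ℂ[X], Sol 𝒜 x J e z ψ

end weak

end Vale.Agent.P280.S
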